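import Vale.Agent.P272.F.Z.Coc

/-! P272 F/Z/Atl (helper76): an atlas on which the Kaehler form has potentials. -/

open Metric Set Filter Topology Complex
open scoped Manifold ContDiff

noncomputable section

namespace Vale.Agent.P272

variable {n : ℕ} {X : Type} [TopologicalSpace X]

/-- The chart `φ` restricted to `U`, centred at `c` and rescaled. -/
def zCh (φ : OpenPartialHomeomorph X (E n)) (U : Set (E n)) (hU : IsOpen U) (hs : U ⊆ φ.target)
    (c : E n) (r : ℝ) (hr : r ≠ 0) : OpenPartialHomeomorph X (E n) where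
  toFun p := r⁻¹ • (φ p - c)
  invFun y := φ.symm (c + r • y)
  source := φ.source ∩ φ ⁻¹' U
  target := (fun y => c + r • y) ⁻¹' U
  map_source' p hp := by
    rw [mem_preimage, smul_inv_smul₀ hr, add_sub_cancel]
    exact hp.2
  map_target' y hy := ⟨φ.map_target (hs hy), by
    rw [mem_preimage, φ.right_inv (hs hy)]
    exact hy⟩
  left_inv' p hp := by rw [smul_inv_smul₀ hr, add_sub_cancel, φ.left_inv hp.1]
  right_inv' y hy := by rw [φ.right_inv (hs hy), add_sub_cancel_left, inv_smul_smul₀ hr]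
  open_source := φ.isOpen_inter_preimage hU
  open_target := hU.preimage (by fun_prop)
  continuousOn_toFun :=
    (((φ.continuousOn.mono inter_subset_left).sub continuousOn_const).const_smul r⁻¹ :)
  continuousOn_invFun := φ.continuousOn_symm.comp (by fun_prop) fun y hy => hs hy

section

variable {φ : OpenPartialHomeomorph X (E n)} {U : Set (E n)} {hU : IsOpen U} {hs : U ⊆ φ.target}
  {c : E n} {r : ℝ} {hr : r ≠ 0} {p : X}

theorem zCh_app (p : X) : c + r • zCh φ U hU hs c r hr p = φ p := by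
  show c + r • r⁻¹ • (φ p - c) = φ p
  rw [smul_inv_smul₀ hr, add_sub_cancel]

theorem zCh_d (hp : p ∈ (zCh φ U hU hs c r hr).source) :
    HasFDerivAt (φ ∘ (zCh φ U hU hs c r hr).symm) (r • (1 : L n)) (zCh φ U hU hs c r hr p) := by
  refine (((hasFDerivAt_id _).const_smul r).const_add c).congr_of_eventuallyEq ?_
  exact ((zCh φ U hU hs c r hr).open_target.eventually_mem
    ((zCh φ U hU hs c r hr).map_source hp)).mono fun y hy => φ.right_inv (hs hy)

theorem zCh_cp : zCp (zCh φ U hU hs c r hr) φ := fun p _ hp => by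
  refine (((differentiableAt_id.sub_const c).const_smul r⁻¹)).congr_of_eventuallyEq ?_
  exact (φ.open_target.eventually_mem (φ.map_source hp)).mono fun y hy =>
    congrArg (fun z => r⁻¹ • (z - c)) (φ.right_inv hy)

end

theorem z_levi (u : E n → ℝ) (c y : E n) (ρ : ℝ) (a : E n) :
    levi (fun y => u (c + ρ • y)) y a = ρ ^ 2 * levi u (c + ρ • y) a := by
  have e1 : fderiv ℝ (fun y => u (c + ρ • y)) = ρ • fun y => fderiv ℝ u (c + ρ • y) := by
    funext z
    rw [fderiv_comp_smul (f := fun w => u (c + w)), fderiv_comp_add_left]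
    rfl
  have e2 : fderiv ℝ (fderiv ℝ (fun y => u (c + ρ • y))) y =
      ρ • ρ • fderiv ℝ (fderiv ℝ u) (c + ρ • y) := by
    have e3 := fderiv_const_smul_field (𝕜 := ℝ) (f := fun y => fderiv ℝ u (c + ρ • y)) ρ
    have e4 := fderiv_comp_smul (𝕜 := ℝ) (f := fun w => fderiv ℝ u (c + w)) (x := y) ρ
    have e5 := fderiv_comp_add_left (𝕜 := ℝ) (f := fderiv ℝ u) (x := ρ • y) c
    rw [e5] at e4
    rw [e1]
    exact (congrFun e3 y).trans (congrArg (ρ • ·) e4)
  unfold levi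
  rw [e2]
  simp only [smul_apply, smul_eq_mul]
  ring

theorem z_pos {Γ : L n} (h : ∀ a, a ≠ 0 → 0 < qf Γ a) : Γ.det ≠ 0 := fun h0 => by
  obtain ⟨a, ha, a0⟩ := (Submodule.ne_bot_iff _).1 (LinearMap.det_eq_zero_iff_ker_ne_bot.1 h0)
  have h1 : Γ a = 0 := ha
  have := h a a0
  simp [qf, h1] at this

theorem z_lv (A : Atl n X) (Γ : Fin A.N → E n → L n)
    (sm : ∀ j, ContDiffOn ℝ ∞ (Γ j) (A.e j).target)
    (pos : ∀ j, ∀ y ∈ (A.e j).target, ∀ a, a ≠ 0 → 0 < qf (Γ j y) a)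
    (cmp : ∀ j k x, x ∈ (A.e j).source → x ∈ (A.e k).source →
      Γ k (A.e k x) = star (A.tr j k x) * Γ j (A.e j x) * A.tr j k x) : Nonempty A.LV := by
  refine ⟨⟨fun j y => Real.log ‖(Γ j y).det‖, fun j y hy => ?_, fun j k x hj hk => ?_⟩⟩
  · have h0 := z_pos (pos j y hy)
    have h1 : ContDiffWithinAt ℝ ∞ (fun y => (Γ j y).det) (A.e j).target y :=
      ((analyticAt_det (Γ j y)).contDiffAt.restrict_scalars ℝ).comp_contDiffWithinAt y (sm j y hy)
    exact (h1.norm ℂ h0).log (norm_ne_zero_iff.2 h0)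
  · have h1 := norm_ne_zero_iff.2 (z_pos (pos j _ ((A.e j).map_source hj)))
    have h2 : ‖(A.tr j k x).det‖ ≠ 0 := norm_ne_zero_iff.2 (z_det (A.hol j k) (A.hol k j) hj hk)
    rw [cmp j k x hj hk, det_mul', det_mul', norm_mul, norm_mul, norm_det_star,
      ← Real.log_mul h1 (pow_ne_zero 2 h2)]
    congr 1
    ring

variable [ChartedSpace (E n) X] [IsManifold 𝓘(ℂ, E n) ω X]

theorem z_atl [CompactSpace X] (U : X → Set (E n)) (hU : ∀ x, IsOpen (U x))
    (hx : ∀ x, chartAt (E n) x x ∈ U x) (hs : ∀ x, U x ⊆ (chartAt (E n) x).target) :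
    ∃ A : Atl n X, A.Cz ∧ ∀ j, ∃ (x : X) (r : ℝ) (hr : r ≠ 0),
      A.e j = zCh (chartAt (E n) x) (U x) (hU x) (hs x) (chartAt (E n) x x) r hr := by
  have h1 : ∀ x, ∃ r : ℝ, 0 < r ∧ closedBall (chartAt (E n) x x) (4 * r) ⊆ U x := fun x => by
    obtain ⟨ε, h1, h2⟩ := nhds_basis_closedBall.mem_iff.1 ((hU x).mem_nhds (hx x))
    exact ⟨ε / 4, by positivity, by rwa [mul_div_cancel₀ _ four_ne_zero]⟩
  choose r hr hb using h1
  let e : X → OpenPartialHomeomorph X (E n) := fun x =>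
    zCh (chartAt (E n) x) (U x) (hU x) (hs x) (chartAt (E n) x x) (r x) (hr x).ne'
  have c1 : ∀ x y, zCp (e x) (chartAt (E n) y) := fun x y p h h' =>
    (z_comp zCh_cp (z_jac x y) h h.1 h').1
  have c2 : ∀ x y, zCp (chartAt (E n) y) (e x) := fun x y p h h' =>
    (z_comp (z_jac y x) (fun _ _ h => (zCh_d h).differentiableAt) h h'.1 h').1
  obtain ⟨t, ht⟩ := CompactSpace.elim_nhds_subcover
    (fun x => (e x).source ∩ e x ⁻¹' ball 0 1) fun x =>
      ((e x).isOpen_inter_preimage isOpen_ball).mem_nhds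
        ⟨⟨mem_chart_source _ x, hx x⟩, by
          show (r x)⁻¹ • (chartAt (E n) x x - chartAt (E n) x x) ∈ ball 0 1
          simp⟩
  refine ⟨⟨t.card, fun j => e (t.equivFin.symm j), fun j y hy => hb _ ?_, fun p => ?_,
    fun j k p h h' => (z_comp (c1 _ _) (c2 _ _) h h'.1 h').1⟩,
    fun j x => ⟨c1 _ _, c2 _ _⟩, fun j => ⟨_, _, (hr _).ne', rfl⟩⟩
  · rw [add_mem_closedBall_iff_norm, norm_smul, Real.norm_of_nonneg (hr _).le, mul_comm]
    exact mul_le_mul_of_nonneg_right (mem_closedBall_zero_iff.1 hy) (hr _).le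
  · obtain ⟨x, hx, hp⟩ := mem_iUnion₂.1 (ht.ge (mem_univ p))
    refine ⟨t.equivFin ⟨x, hx⟩, ?_⟩
    rw [Equiv.symm_apply_apply]
    exact ⟨hp.1, mem_ball_zero_iff.1 hp.2⟩

theorem z_data [CompactSpace X] (g : HermMetric n X) (hg : g.IsKahler) :
    ∃ A : Atl n X, A.Cz ∧ (∃ ρ : A.Pot, ρ.Pos) ∧ Nonempty A.LV := by
  choose u U hU hx hs hu hl using hg
  obtain ⟨A, hA, h⟩ := z_atl U hU hx hs
  choose x r hr he using h
  have tg : ∀ j, ∀ y ∈ (A.e j).target, chartAt (E n) (x j) (x j) + r j • y ∈ U (x j) :=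
    fun j y hy => by rwa [he] at hy
  have sr : ∀ j, ∀ p ∈ (A.e j).source, p ∈ (chartAt (E n) (x j)).source :=
    fun j p hp => by rw [he] at hp; exact hp.1
  have ap : ∀ j p, chartAt (E n) (x j) (x j) + r j • A.e j p = chartAt (E n) (x j) p :=
    fun j p => by rw [he, zCh_app]
  have jc : ∀ j, ∀ p ∈ (A.e j).source, zJ (chartAt (E n) (x j)) (A.e j) p = r j • (1 : L n) :=
    fun j p hp => by
      rw [he] at hp ⊢
      exact (zCh_d hp).fderiv
  let Γ : Fin A.N → E n → L n := fun j y => star (r j • (1 : L n)) *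
    g.Γ (x j) (chartAt (E n) (x j) (x j) + r j • y) * r j • (1 : L n)
  have q : ∀ j y a, qf (Γ j y) a =
      r j ^ 2 * qf (g.Γ (x j) (chartAt (E n) (x j) (x j) + r j • y)) a := fun j y a => by
    rw [qf_conj]
    simpa using qf_smul (g.Γ (x j) (chartAt (E n) (x j) (x j) + r j • y)) (r j) a
  have pos : ∀ j, ∀ y ∈ (A.e j).target, ∀ a, a ≠ 0 → 0 < qf (Γ j y) a := fun j y hy a ha => by
    rw [q]
    exact mul_pos (sq_pos_of_ne_zero (hr j)) (g.pos _ _ (hs _ (tg j y hy)) a ha)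
  have cmp : ∀ j k p, p ∈ (A.e j).source → p ∈ (A.e k).source →
      Γ k (A.e k p) = star (A.tr j k p) * Γ j (A.e j p) * A.tr j k p := fun j k p hj hk => by
    have h1 := (z_comp (z_jac (x j) (x k)) (hA k (x k)).2 (sr j p hj) (sr k p hk) hk).2
    have h2 := (z_comp (hA j (x j)).2 (A.hol j k) (sr j p hj) hj hk).2
    rw [h1, jc j p hj, jc k p hk] at h2
    simp only [Γ, ap]
    rw [g.compat (x j) (x k) p (sr j p hj) (sr k p hk)]
    calc _ = star (zJ (chartAt (E n) (x j)) (chartAt (E n) (x k)) p * r k • (1 : L n)) *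
          g.Γ (x j) (chartAt (E n) (x j) p) *
          (zJ (chartAt (E n) (x j)) (chartAt (E n) (x k)) p * r k • (1 : L n)) := by
          simp only [star_mul, mul_assoc]
          rfl
      _ = _ := by
          rw [h2]
          simp only [star_mul, mul_assoc]
          rfl
  have lv : ∀ j, ∀ y ∈ (A.e j).target, ∀ a,
      levi (fun y => u (x j) (chartAt (E n) (x j) (x j) + r j • y)) y a = qf (Γ j y) a :=
    fun j y hy a => by rw [z_levi, hl _ _ (tg j y hy), q]
  refine ⟨A, hA, ⟨⟨fun j y => u (x j) (chartAt (E n) (x j) (x j) + r j • y),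
    fun j => (hu _).comp (by fun_prop) (tg j), fun j k p hj hk a => ?_⟩, fun j y hy a ha => ?_⟩,
    z_lv A Γ (fun j => ?_) pos cmp⟩
  · rw [lv k _ ((A.e k).map_source hk), lv j _ ((A.e j).map_source hj), cmp j k p hj hk, qf_conj]
  · exact (pos j y hy a ha).trans_eq (lv j y hy a).symm
  · exact (contDiffOn_const.mul ((g.smooth _).comp (by fun_prop) fun y hy =>
      hs _ (tg j y hy))).mul contDiffOn_const

theorem z_full [CompactSpace X] (g : HermMetric n X) (hg : g.IsKahler)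
    (hy : ∀ f : ℂ → X, MDifferentiable 𝓘(ℂ, ℂ) 𝓘(ℂ, E n) f → ∀ z w, f z = f w)
    (h : ∀ A : Atl n X, A.Hyp → ∀ ρ : A.Pot, ρ.Pos → A.LV → A.Ample) : CanAmple n X := by
  obtain ⟨A, hA, ⟨ρ, hρ⟩, ⟨v⟩⟩ := z_data g hg
  exact hA.ample (h A (hA.hyp hy) ρ hρ v)

end Vale.Agent.P272
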