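import Vale.Agent.P272.CTb

/-! P272 F/Z: integrals with parameters and the local solution of the Cauchy-Riemann system. -/

open Metric Set Filter Topology Complex MeasureTheory
open scoped ContDiff

noncomputable section

namespace Vale.Agent.P272

variable {n : ℕ}

theorem par_int {G : Type} [NormedAddCommGroup G] [NormedSpace ℝ G] [MeasurableSpace G]
    [BorelSpace G] [SecondCountableTopology G] {μ : Measure G} {K : G → ℂ}
    (hK : LocallyIntegrable K μ) {F : E n × G → ℂ} (hF : ContDiff ℝ ∞ F)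
    (hs : ∀ R : ℝ, ∃ k, IsCompact k ∧ ∀ p x, ‖p‖ < R → x ∉ k → F (p, x) = 0) :
    ContDiff ℝ ∞ (fun p => ∫ x, K x * F (p, x) ∂μ) ∧ ∀ p v,
      Integrable (fun x => K x * fderiv ℝ F (p, x) (v, 0)) μ ∧
      fderiv ℝ (fun p => ∫ x, K x * F (p, x) ∂μ) p v = ∫ x, K x * fderiv ℝ F (p, x) (v, 0) ∂μ := by
  refine ⟨contDiff_iff_contDiffAt.2 fun p => ?_, fun p v => ?_⟩
  · obtain ⟨k, hk, h0⟩ := hs (‖p‖ + 1)
    have h := contDiffOn_convolution_right_with_param_comp (n := ⊤) (μ := μ)
      (ContinuousLinearMap.mul ℝ ℂ) (s := ball 0 (‖p‖ + 1)) (v := fun _ : E n => (0 : G))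
      contDiffOn_const (g := fun p x => F (p, -x)) (k := -k) isOpen_ball hk.neg
      (fun p x h1 h2 => h0 p _ (mem_ball_zero_iff.1 h1) h2) hK
      (hF.comp (contDiff_fst.prodMk contDiff_snd.neg)).contDiffOn
    have h' := h.contDiffAt (isOpen_ball.mem_nhds (mem_ball_zero_iff.2 (lt_add_one ‖p‖)))
    simpa [convolution] using h'
  · obtain ⟨k, hk, h0⟩ := hs (‖p‖ + 1)
    have hb : ∀ y ∈ ball p 1, ‖y‖ < ‖p‖ + 1 := fun y hy => by
      have a1 := norm_le_norm_add_norm_sub' y p
      have a3 := mem_ball_iff_norm.1 hy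
      linarith
    let D : E n × G → E n →L[ℝ] ℂ := fun q => (fderiv ℝ F q).comp (ContinuousLinearMap.inl ℝ _ G)
    have hD : Continuous D := (hF.continuous_fderiv (by simp)).clm_comp continuous_const
    have h1 : ∀ y u, HasFDerivAt (fun y => F (y, u)) (D (y, u)) y := fun y u =>
      (hF.differentiable (by simp) (y, u)).hasFDerivAt.comp y (hasFDerivAt_prodMk_left y u)
    have h2 : ∀ y ∈ ball p 1, ∀ u, u ∉ k → D (y, u) = 0 := fun y hy u hu =>
      (h1 y u).unique ((hasFDerivAt_const (0 : ℂ) y).congr_of_eventuallyEq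
        (Filter.mem_of_superset (isOpen_ball.mem_nhds hy) fun z hz => h0 z u (hb z hz) hu))
    obtain ⟨C, hC⟩ := ((isCompact_closedBall p 1).prod hk).exists_bound_of_continuousOn
      hD.continuousOn
    have hi : ∀ {g : G → ℂ}, Continuous g → (∀ x, x ∉ k → g x = 0) →
        Integrable (fun x => K x * g x) μ := fun {g} hg hz => by
      refine (integrableOn_iff_integrable_of_support_subset (s := k) fun x hx => ?_).1
        ((hK.integrableOn_isCompact hk).mul_continuousOn hg.continuousOn hk)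
      by_contra hx'
      exact hx (by simp [hz x hx'])
    have hm : ∀ y, AEStronglyMeasurable (fun x => K x • D (y, x)) μ := fun y =>
      hK.aestronglyMeasurable.smul (hD.comp (Continuous.prodMk_right y)).aestronglyMeasurable
    have hbd : ∀ u, ∀ y ∈ ball p 1, ‖K u • D (y, u)‖ ≤ k.indicator (fun u => ‖K u‖ * C) u :=
      fun u y hy => by
        by_cases hu : u ∈ k
        · rw [indicator_of_mem hu]
          rw [norm_smul (K u) (D (y, u))]
          exact mul_le_mul_of_nonneg_left (hC (y, u) ⟨ball_subset_closedBall hy, hu⟩)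
            (norm_nonneg (K u))
        · rw [norm_smul (K u) (D (y, u)), h2 y hy u hu, indicator_of_notMem hu, norm_zero, mul_zero]
    have hI : Integrable (k.indicator fun u => ‖K u‖ * C) μ :=
      IntegrableOn.integrable_indicator ((hK.integrableOn_isCompact hk).norm.mul_const C)
        hk.measurableSet
    have h4 : Integrable (fun x => K x • D (p, x)) μ :=
      hI.mono' (hm p) (ae_of_all _ fun u => hbd u p (mem_ball_self one_pos))
    have h5 := hasFDerivAt_integral_of_dominated_of_fderiv_le (μ := μ) (𝕜 := ℝ)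
      (F := fun y u => K u * F (y, u)) (F' := fun y u => K u • D (y, u)) (ball_mem_nhds p one_pos)
      (Filter.Eventually.of_forall fun y => hK.aestronglyMeasurable.mul
        (hF.continuous.comp (Continuous.prodMk_right y)).aestronglyMeasurable)
      (hi (hF.continuous.comp (Continuous.prodMk_right p)) fun x hx => h0 p x (lt_add_one _) hx)
      (hm p) (ae_of_all _ hbd) hI (ae_of_all _ fun u y _ => (h1 y u).const_mul _)
    refine ⟨h4.apply_continuousLinearMap v, ?_⟩
    rw [h5.fderiv, ContinuousLinearMap.integral_apply h4]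
    rfl

/-- Twice the antiholomorphic derivative in direction `v`. -/
def dbv (h : E n → ℂ) (v y : E n) : ℂ := fderiv ℝ h y v + I * fderiv ℝ h y (I • v)

theorem dbv_smooth {h : E n → ℂ} (hh : ContDiff ℝ ∞ h) (v : E n) : ContDiff ℝ ∞ (dbv h v) := by
  have h1 : ContDiff ℝ ∞ (fderiv ℝ h) := (contDiff_infty_iff_fderiv.1 hh).2
  exact (h1.clm_apply contDiff_const).add (contDiff_const.mul (h1.clm_apply contDiff_const))

theorem dbv_congr {h h' : E n → ℂ} {y : E n} (e : h =ᶠ[𝓝 y] h') (v : E n) :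
    dbv h v =ᶠ[𝓝 y] dbv h' v := by
  filter_upwards [e.fderiv (𝕜 := ℝ)] with z hz
  simp only [dbv, hz]

theorem dbv_add {h h' : E n → ℂ} (hh : ContDiff ℝ ∞ h) (hh' : ContDiff ℝ ∞ h') (v y : E n) :
    dbv (fun y => h y + h' y) v y = dbv h v y + dbv h' v y := by
  simp only [dbv, fderiv_fun_add (hh.differentiable (by simp) y) (hh'.differentiable (by simp) y),
    add_apply]
  ring

theorem dbv_sub {h h' : E n → ℂ} (hh : ContDiff ℝ ∞ h) (hh' : ContDiff ℝ ∞ h') (v y : E n) :
    dbv (fun y => h y - h' y) v y = dbv h v y - dbv h' v y := by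
  simp only [dbv, fderiv_fun_sub (hh.differentiable (by simp) y) (hh'.differentiable (by simp) y),
    sub_apply]
  ring

theorem dbv_der {h : E n → ℂ} (hh : ContDiff ℝ ∞ h) (v y a : E n) :
    fderiv ℝ (dbv h v) y a =
      fderiv ℝ (fderiv ℝ h) y a v + I * fderiv ℝ (fderiv ℝ h) y a (I • v) := by
  have h1 := ((contDiff_infty_iff_fderiv.1 hh).2.differentiable (by simp) y).hasFDerivAt
  have h2 : HasFDerivAt (dbv h v) _ y := (h1.clm_apply (hasFDerivAt_const v y)).add
    ((h1.clm_apply (hasFDerivAt_const (I • v) y)).const_mul I)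
  rw [h2.fderiv]
  simp

theorem dbv_comm {h : E n → ℂ} (hh : ContDiff ℝ ∞ h) (v w y : E n) :
    dbv (dbv h v) w y = dbv (dbv h w) v y := by
  have s := (hh.contDiffAt (x := y)).isSymmSndFDerivAt (by simpa using by decide)
  rw [dbv, dbv, dbv_der hh, dbv_der hh, dbv_der hh, dbv_der hh, s w v, s w (I • v), s (I • w) v,
    s (I • w) (I • v)]
  ring

theorem dolb_step {h : E n → ℂ} (hh : ContDiff ℝ ∞ h) (m : Fin n) {r : ℝ} (hr : 0 < r) :
    ∃ f : E n → ℂ, ContDiff ℝ ∞ f ∧ ∀ y, ‖y‖ < r / 4 → dbv f (EuclideanSpace.single m 1) y = h y ∧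
      ∀ j, j ≠ m → (∀ z, ‖z‖ < r → dbv h (EuclideanSpace.single j 1) z = 0) →
        dbv f (EuclideanSpace.single j 1) y = 0 := by
  let ψ : ContDiffBump (0 : ℂ) := ⟨r / 4, r / 2, by positivity, by linarith⟩
  let e : E n := EuclideanSpace.single m 1
  let π : E n →L[ℝ] ℂ := (EuclideanSpace.proj m : E n →L[ℂ] ℂ).restrictScalars ℝ
  have hψ : ContDiff ℝ ∞ fun z : ℂ => (ψ z : ℂ) := ofRealCLM.contDiff.comp ψ.contDiff
  let H : E n → ℂ := fun z => ψ (π z) * h z
  have hH : ContDiff ℝ ∞ H := (hψ.comp π.contDiff).mul hh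
  let T : E n × ℂ →L[ℝ] E n := ContinuousLinearMap.fst ℝ _ _ -
    (((ContinuousLinearMap.id ℂ ℂ).smulRight e).restrictScalars ℝ).comp
      (ContinuousLinearMap.snd ℝ _ _)
  have hT : ∀ y ζ, T (y, ζ) = y - ζ • e := fun _ _ => rfl
  have hπ : ∀ y (ζ : ℂ), π (y - ζ • e) = π y - ζ := fun y ζ => by simp [π, e]
  have hπn : ∀ y, ‖π y‖ ≤ ‖y‖ := fun y => PiLp.norm_apply_le y m
  have hz : ∀ z, r / 2 ≤ ‖π z‖ → H z = 0 := fun z h1 => by
    have : ψ (π z) = 0 := ψ.zero_of_le_dist (by simpa using h1)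
    simp [H, this]
  have hz' : ∀ (R : ℝ) y ζ, ‖y‖ < R → ζ ∉ closedBall (0 : ℂ) (R + r) → H (y - ζ • e) = 0 :=
    fun R y ζ h1 h2 => hz _ (by
      have a1 := norm_sub_norm_le ζ (π y)
      have a2 : R + r < ‖ζ‖ := by simpa using h2
      have a3 := hπn y
      rw [hπ, norm_sub_rev]
      linarith)
  obtain ⟨h1, h2⟩ := par_int (n := n) ctb_li (F := H ∘ T) (hH.comp T.contDiff)
    fun R => ⟨_, isCompact_closedBall 0 (R + r), fun y ζ => hz' R y ζ⟩
  have h3 : ∀ q w, fderiv ℝ (H ∘ T) q w = fderiv ℝ H (T q) (T w) := fun q w => by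
    rw [fderiv_comp q (hH.differentiable (by simp) _) T.differentiableAt, T.fderiv]
    rfl
  have h4 : ∀ v y, dbv (fun p => ∫ ζ : ℂ, 1 / (2 * Real.pi * ζ) * (H ∘ T) (p, ζ)) v y =
      ∫ ζ : ℂ, 1 / (2 * Real.pi * ζ) * dbv H v (y - ζ • e) := fun v y => by
    rw [dbv, (h2 y v).2, (h2 y _).2, ← integral_const_mul,
      ← integral_add (h2 y v).1 ((h2 y _).1.const_mul I)]
    refine integral_congr_ae (ae_of_all _ fun ζ => ?_)
    simp only [h3, hT, dbv, zero_smul, sub_zero]
    ring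
  refine ⟨_, h1, fun y hy => ⟨?_, fun j hj h0 => ?_⟩⟩
  · have c1 : ContDiff ℝ 1 fun ζ : ℂ => (H ∘ T) (y, ζ) :=
      ((hH.comp T.contDiff).of_le (by simp)).comp (contDiff_const.prodMk contDiff_id)
    have c2 := P136.cauchy_pompeiu _ c1
      (HasCompactSupport.intro (isCompact_closedBall 0 (r + r)) fun ζ hζ =>
        hz' r y ζ (by linarith) hζ)
    have c3 : ∀ ζ v : ℂ, fderiv ℝ (fun ζ : ℂ => (H ∘ T) (y, ζ)) ζ v =
        -fderiv ℝ H (y - ζ • e) (v • e) := fun ζ v => by
      have a1 := (HasFDerivAt.comp ζ (f := fun ζ : ℂ => (y, ζ))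
        ((hH.comp T.contDiff).differentiable (by simp) (y, ζ)).hasFDerivAt
        (hasFDerivAt_prodMk_right y ζ)).fderiv
      refine (DFunLike.congr_fun a1 v).trans ((h3 (y, ζ) (0, v)).trans ?_)
      rw [hT, hT, zero_sub, map_neg]
    have c4 : H y = h y := by
      have : ψ (π y) = 1 := ψ.one_of_mem_closedBall
        (mem_closedBall_zero_iff.2 ((hπn y).trans hy.le))
      simp [H, this]
    rw [h4, ← c4, ← neg_neg (H y)]
    have c5 : (H ∘ T) (y, 0) = H y := by simp [hT]
    rw [← c5, ← c2, ← integral_neg]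
    refine integral_congr_ae (ae_of_all _ fun ζ => ?_)
    simp only [c3, dbv, smul_eq_mul, one_smul]
    ring
  · rw [h4]
    refine integral_eq_zero_of_ae (ae_of_all _ fun ζ => ?_)
    have d1 : ∀ z v, π v = 0 → fderiv ℝ H z v = ψ (π z) * fderiv ℝ h z v := fun z v hv => by
      have a1 := ((hψ.differentiable (by simp) (π z)).hasFDerivAt.comp z π.hasFDerivAt).mul
        (hh.differentiable (by simp) z).hasFDerivAt
      refine (DFunLike.congr_fun a1.fderiv v).trans ?_
      simp [hv]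
    have d2 : dbv H (EuclideanSpace.single j 1) (y - ζ • e) =
        ψ (π (y - ζ • e)) * dbv h (EuclideanSpace.single j 1) (y - ζ • e) := by
      rw [dbv, dbv, d1 _ _ (by simp [π, hj.symm]), d1 _ _ (by simp [π, hj.symm])]
      ring
    simp only [d2, Pi.zero_apply]
    by_cases hζ : r / 2 ≤ ‖π (y - ζ • e)‖
    · have : ψ (π (y - ζ • e)) = 0 := ψ.zero_of_le_dist (by simpa using hζ)
      rw [this, ofReal_zero, zero_mul, mul_zero]
    · rw [h0, mul_zero, mul_zero]
      have a1 := norm_sub_le y (ζ • e)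
      have a2 : ‖ζ • e‖ = ‖ζ‖ := by simp [e, norm_smul]
      have a3 := norm_sub_norm_le ζ (π y)
      have a4 := hπn y
      rw [hπ, norm_sub_rev] at hζ
      linarith [not_le.1 hζ]

theorem dolb (b : Fin n → E n → ℂ) (hb : ∀ k, ContDiff ℝ ∞ (b k))
    (hc : ∀ j k, ∀ᶠ y in 𝓝 (0 : E n),
      dbv (b k) (EuclideanSpace.single j 1) y = dbv (b j) (EuclideanSpace.single k 1) y) :
    ∃ f : E n → ℂ, ContDiff ℝ ∞ f ∧
      ∀ᶠ y in 𝓝 (0 : E n), ∀ k, dbv f (EuclideanSpace.single k 1) y = b k y := by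
  have key : ∀ s : Finset (Fin n), ∃ f : E n → ℂ, ContDiff ℝ ∞ f ∧
      ∀ᶠ y in 𝓝 (0 : E n), ∀ k ∈ s, dbv f (EuclideanSpace.single k 1) y = b k y := fun s => by
    induction s using Finset.induction_on with
    | empty => exact ⟨0, contDiff_const, Eventually.of_forall fun _ _ h => by simp at h⟩
    | insert m s hm ih =>
      obtain ⟨f, hf, he⟩ := ih
      have hh : ContDiff ℝ ∞ fun y => b m y - dbv f (EuclideanSpace.single m 1) y :=
        (hb m).sub (dbv_smooth hf _)
      have h1 : ∀ᶠ y in 𝓝 (0 : E n), ∀ j ∈ s, dbv (fun y => b m y -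
          dbv f (EuclideanSpace.single m 1) y) (EuclideanSpace.single j 1) y = 0 := by
        refine (eventually_all_finset s).2 fun j hj => ?_
        have a1 : dbv f (EuclideanSpace.single j 1) =ᶠ[𝓝 0] b j := he.mono fun y hy => hy j hj
        filter_upwards [hc j m, dbv_congr a1 (EuclideanSpace.single m 1)] with y e1 e2
        rw [dbv_sub (hb m) (dbv_smooth hf _), dbv_comm hf, e2, e1, sub_self]
      obtain ⟨r, hr, h2⟩ := Metric.eventually_nhds_iff_ball.1 h1
      obtain ⟨g, hg, h3⟩ := dolb_step hh m hr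
      refine ⟨_, hf.add hg, ?_⟩
      filter_upwards [he, ball_mem_nhds (0 : E n) (by positivity : 0 < r / 4)] with y e1 e2 k hk
      obtain ⟨e3, e4⟩ := h3 y (mem_ball_zero_iff.1 e2)
      rw [dbv_add hf hg]
      rcases Finset.mem_insert.1 hk with rfl | hk
      · rw [e3, add_sub_cancel]
      · rw [e1 k hk, e4 k (fun e => hm (e ▸ hk)) fun z hz => h2 z (mem_ball_zero_iff.2 hz) k hk,
          add_zero]
  obtain ⟨f, hf, h⟩ := key Finset.univ
  exact ⟨f, hf, h.mono fun y hy k => hy k (Finset.mem_univ k)⟩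

end Vale.Agent.P272
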