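import Vale.Agent.P272.F.StmtC
import Vale.Agent.P272.F.Z.Dolb
import Vale.Agent.P272.F.S.Par

/-! P272 F/Z/DD: a closed fundamental form has local potentials. -/

open Metric Set Filter Topology Complex MeasureTheory
open scoped ContDiff

noncomputable section

namespace Vale.Agent.P272

variable {n : ℕ}

theorem dd_app {P : Type} [NormedAddCommGroup P] [NormedSpace ℝ P] {Γ : P → L n} {v : P → E n}
    {y : P} {Γ' : P →L[ℝ] L n} {v' : P →L[ℝ] E n} (h1 : HasFDerivAt Γ Γ' y)
    (h2 : HasFDerivAt v v' y) : ∃ D : P →L[ℝ] E n, HasFDerivAt (fun y => Γ y (v y)) D y ∧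
      ∀ a, D a = Γ' a (v y) + Γ y (v' a) := by
  have h3 := ((ContinuousLinearMap.restrictScalarsL ℂ (E n) (E n) ℝ ℝ).hasFDerivAt.comp y h1).clm_apply h2
  exact ⟨_, h3, fun a => by simp [add_comm]⟩

theorem dd_cd {P : Type} [NormedAddCommGroup P] [NormedSpace ℝ P] {Γ : P → L n} {v : P → E n}
    (h1 : ContDiff ℝ ∞ Γ) (h2 : ContDiff ℝ ∞ v) : ContDiff ℝ ∞ fun y => Γ y (v y) :=
  ((ContinuousLinearMap.restrictScalarsL ℂ (E n) (E n) ℝ ℝ).contDiff.comp h1).clm_apply h2

theorem dd_om {Γ : E n → L n} {y : E n} (h : DifferentiableAt ℝ Γ y) (a b c : E n) :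
    fderiv ℝ (fun y => (inner ℂ b (Γ y c)).im) y a = (inner ℂ b (fderiv ℝ Γ y a c)).im := by
  obtain ⟨D, h1, h2⟩ := dd_app h.hasFDerivAt (hasFDerivAt_const c y)
  have h3 := (imCLM.comp ((innerSL ℂ b).restrictScalars ℝ)).hasFDerivAt.comp y h1
  refine (congrArg (fun T : E n →L[ℝ] ℝ => T a) h3.fderiv).trans ?_
  simp [h2]

theorem dd_sym {T : L n} (h : IsSelfAdjoint T) (a b : E n) :
    (inner ℂ (T a) b).im = (inner ℂ a (T b)).im :=
  congrArg Complex.im (ContinuousLinearMap.isSelfAdjoint_iff_isSymmetric.1 h a b)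

theorem dd_anti (a b : E n) : (inner ℂ a b).im = -(inner ℂ b a).im := by
  rw [← inner_conj_symm, conj_im]

/-- The Poincare lemma. -/
theorem dd_poin {Γ : E n → L n} (hΓ : ContDiff ℝ ∞ Γ) (sa : ∀ y, IsSelfAdjoint (Γ y)) {r : ℝ}
    (hc : ∀ y, ‖y‖ < r → ∀ a b c, (inner ℂ b (fderiv ℝ Γ y a c)).im +
      (inner ℂ c (fderiv ℝ Γ y b a)).im + (inner ℂ a (fderiv ℝ Γ y c b)).im = 0) :
    ∃ Z : E n → E n, ContDiff ℝ ∞ Z ∧ ∀ y, ‖y‖ < r → ∀ a b,
      (inner ℂ (fderiv ℝ Z y a) b).im - (inner ℂ (fderiv ℝ Z y b) a).im =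
        (inner ℂ a (Γ y b)).im := by
  have hG : ContDiff ℝ ∞ fun p : E n × ℝ => p.2 • Γ (p.2 • p.1) p.1 :=
    contDiff_snd.smul (dd_cd (hΓ.comp (contDiff_snd.smul contDiff_fst)) contDiff_fst)
  have hS : Bornology.IsBounded (Ioc (0 : ℝ) 1) := isBounded_Ioc 0 1
  have hd : ∀ y, HasFDerivAt Γ (fderiv ℝ Γ y) y := fun y =>
    (hΓ.differentiable (by simp) y).hasFDerivAt
  have hs : ∀ y a u v, (inner ℂ (fderiv ℝ Γ y a u) v).im = (inner ℂ u (fderiv ℝ Γ y a v)).im :=
    fun y a u v => by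
    rw [dd_anti, ← dd_om (hd y).differentiableAt, ← dd_om (hd y).differentiableAt,
      ← neg_apply, ← fderiv_fun_neg]
    exact congrArg (fun f : E n → ℝ => fderiv ℝ f y a) (funext fun z => by
      rw [← dd_anti, dd_sym (sa z)])
  refine ⟨_, spar_smooth (μ := volume) hG hS measurableSet_Ioc, fun y hy a b => ?_⟩
  have e : ∀ (t : ℝ) a, ((fderiv ℝ (fun p : E n × ℝ => p.2 • Γ (p.2 • p.1) p.1) (y, t)).comp
      (ContinuousLinearMap.inl ℝ (E n) ℝ)) a =
      t • (t • fderiv ℝ Γ (t • y) a y + Γ (t • y) a) := fun t a => by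
    obtain ⟨D, h1, h2⟩ := dd_app ((hd (t • y)).comp y ((hasFDerivAt_id y).const_smul t))
      (hasFDerivAt_id y)
    rw [(spar_has hG y t).unique (h1.const_smul t)]
    simp [h2]
  have H : ∀ a b, (inner ℂ (fderiv ℝ (fun p => ∫ t in Ioc (0 : ℝ) 1, t • Γ (t • p) p) y a) b).im =
      ∫ t in Ioc (0 : ℝ) 1, t * (t * (inner ℂ y (fderiv ℝ Γ (t • y) a b)).im +
        (inner ℂ a (Γ (t • y) b)).im) := fun a b => by
    rw [(spar_fderiv (μ := volume) hG hS measurableSet_Ioc y).fderiv,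
      ContinuousLinearMap.integral_apply (spar_int (spar_c hG y) hS), dd_anti]
    have h1 := (imCLM.comp ((innerSL ℂ b).restrictScalars ℝ)).integral_comp_comm
      (spar_int (μ := volume) ((spar_c hG y).clm_apply (continuous_const (y := a))) hS)
    refine (congrArg Neg.neg h1.symm).trans ?_
    rw [← integral_neg]
    refine integral_congr_ae (Eventually.of_forall fun t => ?_)
    simp only [e, map_smul, map_add, smul_eq_mul]
    rw [← hs, ← dd_sym (sa _), dd_anti (fderiv ℝ Γ (t • y) a y), dd_anti (Γ (t • y) a)]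
    simp only [ContinuousLinearMap.comp_apply, ContinuousLinearMap.coe_restrictScalars',
      innerSL_apply_apply, imCLM_apply]
    ring
  have c1 : Continuous fun t : ℝ => Γ (t • y) := hΓ.continuous.comp (by fun_prop)
  have c2 : Continuous fun t : ℝ => fderiv ℝ Γ (t • y) :=
    (hΓ.continuous_fderiv (by simp)).comp (by fun_prop)
  have c3 : ∀ a b, Continuous fun t : ℝ => t * (t * (inner ℂ y (fderiv ℝ Γ (t • y) a b)).im +
      (inner ℂ a (Γ (t • y) b)).im) := fun a b => by fun_prop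
  rw [H, H, ← integral_sub (spar_int (c3 a b) hS) (spar_int (c3 b a) hS),
    ← intervalIntegral.integral_of_le zero_le_one]
  have h4 : ∀ t : ℝ, HasDerivAt (fun t : ℝ => t ^ 2 * (inner ℂ a (Γ (t • y) b)).im)
      (2 * t * (inner ℂ a (Γ (t • y) b)).im + t ^ 2 * (inner ℂ a (fderiv ℝ Γ (t • y) y b)).im) t :=
    fun t => by
    have h5 : DifferentiableAt ℝ (fun z => (inner ℂ a (Γ z b)).im) (t • y) :=
      (imCLM.comp ((innerSL ℂ a).restrictScalars ℝ)).differentiableAt.comp _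
        (dd_app (hd _) (hasFDerivAt_const b _)).choose_spec.1.differentiableAt
    have h6 := h5.hasFDerivAt.comp_hasDerivAt t ((hasDerivAt_id t).smul_const y)
    rw [one_smul, dd_om (hd _).differentiableAt] at h6
    simpa using (hasDerivAt_pow 2 t).fun_mul h6
  have h7 := intervalIntegral.integral_eq_sub_of_hasDerivAt (a := 0) (b := 1) (fun t _ => h4 t)
    (Continuous.intervalIntegrable (by fun_prop) _ _)
  simp only [one_pow, one_mul, one_smul, ne_eq, OfNat.ofNat_ne_zero, not_false_eq_true, zero_pow,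
    zero_mul, sub_zero] at h7
  refine (intervalIntegral.integral_congr fun t ht => ?_).trans h7
  rw [uIcc_of_le zero_le_one] at ht
  have h8 := hc (t • y) (by
    rw [norm_smul, Real.norm_of_nonneg ht.1]
    exact (mul_le_of_le_one_left (norm_nonneg _) ht.2).trans_lt hy) a b y
  have h9 := hs (t • y) a y b
  rw [dd_anti] at h9
  have h10 := dd_sym (sa (t • y)) a b
  rw [dd_anti] at h10
  linear_combination (-t ^ 2) * h8 - t ^ 2 * h9 + t * h10

/-- From the primitive to a potential. -/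
theorem dd_pot {Z : E n → E n} (hZ : ContDiff ℝ ∞ Z) {Γ : E n → L n}
    (h : ∀ᶠ y in 𝓝 (0 : E n), ∀ a b, (inner ℂ (fderiv ℝ Z y a) b).im -
      (inner ℂ (fderiv ℝ Z y b) a).im = (inner ℂ a (Γ y b)).im) :
    ∃ u : E n → ℝ, ContDiff ℝ ∞ u ∧ ∀ᶠ y in 𝓝 (0 : E n), ∀ a, levi u y a = qf (Γ y) a := by
  have hd : ∀ y, HasFDerivAt Z (fderiv ℝ Z y) y := fun y =>
    (hZ.differentiable (by simp) y).hasFDerivAt
  have e : ∀ (c : ℂ) v y a, fderiv ℝ (fun y => c * inner ℂ v (Z y)) y a =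
      c * inner ℂ v (fderiv ℝ Z y a) := fun c v y a =>
    congrArg (fun T : E n →L[ℝ] ℂ => T a)
      ((((innerSL ℂ v).restrictScalars ℝ).hasFDerivAt.comp y (hd y)).const_mul c).fderiv
  obtain ⟨f, hf, hf'⟩ := dolb (fun k y => I * inner ℂ (eb k) (Z y))
    (fun k => contDiff_const.mul (contDiff_const.inner ℂ hZ)) fun j k => by
      filter_upwards [h] with y hy
      have h1 := hy (eb j) (eb k)
      have h2 := hy (eb j) (I • eb k)
      have h3 := hy (I • eb j) (eb k)
      have h4 := hy (I • eb j) (I • eb k)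
      rw [dd_anti (fderiv ℝ Z y _), dd_anti (fderiv ℝ Z y _)] at h1 h2 h3 h4
      simp only [map_smul, inner_smul_left, inner_smul_right, conj_I, mul_im, mul_re, neg_re, neg_im,
        I_re, I_im] at h1 h2 h3 h4
      simp only [dbv, e]
      change I * inner ℂ (eb k) (fderiv ℝ Z y (eb j)) + I * (I * inner ℂ (eb k)
        (fderiv ℝ Z y (I • eb j))) = I * inner ℂ (eb j) (fderiv ℝ Z y (eb k)) +
        I * (I * inner ℂ (eb j) (fderiv ℝ Z y (I • eb k)))
      apply Complex.ext <;> simp only [add_re, add_im, mul_re, mul_im, I_re, I_im] <;> linarith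
  have h5 : ∀ᶠ y in 𝓝 (0 : E n), ∀ v, dbv f v y = I * inner ℂ v (Z y) := by
    filter_upwards [hf'] with y hy v
    have h6 : ∀ (c : ℂ) w, dbv f (c • w) y = starRingEnd ℂ c * dbv f w y := fun c w => by
      have h7 : ∀ w : E n, c • w = c.re • w + c.im • (I • w) := fun w => by
        rw [← Complex.coe_smul, ← Complex.coe_smul, smul_smul, ← add_smul, re_add_im]
      have h8 : I • I • w = -w := by rw [smul_smul, I_mul_I, neg_one_smul]
      rw [dbv, dbv, smul_comm I c, h7 w, h7 (I • w), h8]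
      simp only [map_add, map_smul, map_neg, Complex.real_smul]
      rw [show starRingEnd ℂ c = c.re - c.im * I from Complex.ext (by simp) (by simp)]
      linear_combination (c.im * fderiv ℝ f y (I • w)) * I_mul_I
    have h9 : v = ∑ k, v k • eb k := by
      ext i
      simp [eb, Pi.single_apply]
    have h10 : ∀ s : Finset (Fin n), dbv f (∑ k ∈ s, v k • eb k) y =
        ∑ k ∈ s, dbv f (v k • eb k) y := fun s => by
      simp only [dbv, Finset.smul_sum, map_sum, Finset.mul_sum, Finset.sum_add_distrib]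
    rw [h9, h10, sum_inner, Finset.mul_sum]
    refine Finset.sum_congr rfl fun k _ => ?_
    rw [h6, inner_smul_left, show dbv f (eb k) y = _ from hy k]
    ring
  have hD : ContDiff ℝ ∞ (fderiv ℝ f) := hf.fderiv_right (m := ∞) le_rfl
  refine ⟨fun y => 4 * (f y).im, contDiff_const.mul (imCLM.contDiff.comp hf), ?_⟩
  filter_upwards [h5.eventually_nhds, h] with y hy h1 a
  have e1 : (fderiv ℝ fun y => 4 * (f y).im) = fun y => ((4 : ℝ) • imCLM).comp (fderiv ℝ f y) :=
    funext fun y => (((4 : ℝ) • imCLM).hasFDerivAt.comp y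
      (hf.differentiable (by simp) y).hasFDerivAt).fderiv
  have hd2 := (hD.differentiable (by simp) y).hasFDerivAt
  have e2 : ∀ v, fderiv ℝ (fderiv ℝ fun y => 4 * (f y).im) y v v =
      4 * (fderiv ℝ (fderiv ℝ f) y v v).im := fun v => by
    rw [e1, ((hasFDerivAt_const ((4 : ℝ) • imCLM) y).clm_comp hd2).fderiv]
    simp
  have e3 : ∀ v w, fderiv ℝ (fderiv ℝ f) y w v + I * fderiv ℝ (fderiv ℝ f) y w (I • v) =
      I * inner ℂ v (fderiv ℝ Z y w) := fun v w => by
    have h2 : (fun y => dbv f v y) =ᶠ[𝓝 y] fun y => I * inner ℂ v (Z y) := hy.mono fun z hz => hz v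
    rw [← e, ← h2.fderiv_eq]
    have h3 := (hd2.clm_apply (hasFDerivAt_const v y)).fun_add
      ((hd2.clm_apply (hasFDerivAt_const (I • v) y)).const_mul I)
    refine Eq.trans ?_ (congrArg (fun T : E n →L[ℝ] ℂ => T w) h3.fderiv).symm
    simp
  have h4 := congrArg Complex.re (e3 (I • a) a)
  have h6 := congrArg Complex.re (e3 a (I • a))
  have h7 := congrArg Complex.re ((hf.contDiffAt (x := y)).isSymmSndFDerivAt
    (by simpa using WithTop.coe_le_coe.2 (le_top (a := (2 : ℕ∞)))) a (I • a))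
  have h8 := h1 a (I • a)
  rw [dd_anti (fderiv ℝ Z y _), dd_anti (fderiv ℝ Z y _)] at h8
  rw [smul_smul, I_mul_I, neg_one_smul, map_neg] at h4
  simp only [map_smul, inner_smul_left, inner_smul_right, conj_I, mul_im, mul_re, neg_re, neg_im,
    add_re, I_re, I_im] at h4 h6 h8
  rw [levi, e2, e2, qf]
  linarith

theorem HermMetric.IsClosed.isKahler {X : Type} [TopologicalSpace X] [ChartedSpace (E n) X]
    {g : HermMetric n X} (h : g.IsClosed) : g.IsKahler := fun x => by
  have ho := (chartAt (E n) x).open_target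
  obtain ⟨c, hc⟩ : ∃ c, c = chartAt (E n) x x := ⟨_, rfl⟩
  obtain ⟨r, hr, hs⟩ := nhds_basis_closedBall.mem_iff.1 (ho.mem_nhds (mem_chart_target (E n) x))
  rw [← hc] at hs ⊢
  let χ : ContDiffBump (0 : E n) := ⟨r / 2, r, by positivity, by linarith⟩
  have hm : ∀ y : E n, ‖y‖ ≤ r → y + c ∈ (chartAt (E n) x).target := fun y hy =>
    hs (by simpa using hy)
  have h0 : ∀ y : E n, r ≤ ‖y‖ → χ y = 0 := fun y hy => χ.zero_of_le_dist (by simpa using hy)
  have hat : ∀ y : E n, ‖y‖ ≤ r → ContDiffAt ℝ ∞ (fun y => g.Γ x (y + c)) y := fun y hy =>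
    ((g.smooth x).contDiffAt (ho.mem_nhds (hm y hy))).comp y (contDiffAt_id.add contDiffAt_const)
  have hΓ : ContDiff ℝ ∞ fun y => ((χ y : ℝ) : ℂ) • g.Γ x (y + c) :=
    contDiff_iff_contDiffAt.2 fun y => by
    rcases le_or_gt ‖y‖ r with hy | hy
    · exact (ofRealCLM.contDiff.contDiffAt.comp y χ.contDiffAt).smul (hat y hy)
    · refine (contDiffAt_const (c := 0)).congr_of_eventuallyEq ?_
      filter_upwards [(isOpen_lt continuous_const continuous_norm).mem_nhds hy] with z hz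
      rw [h0 z (le_of_lt hz), ofReal_zero]
      exact zero_smul ℂ (g.Γ x (z + c))
  have he : ∀ y : E n, ‖y‖ < r / 2 →
      (fun y => ((χ y : ℝ) : ℂ) • g.Γ x (y + c)) =ᶠ[𝓝 y] fun y => g.Γ x (y + c) := fun y hy => by
    filter_upwards [(isOpen_lt continuous_norm continuous_const).mem_nhds hy] with z hz
    rw [χ.one_of_mem_closedBall (mem_closedBall_zero_iff.2 (le_of_lt hz)), ofReal_one, one_smul]
  obtain ⟨Z, hZ, hZ'⟩ := dd_poin hΓ (r := r / 2) (fun y => by
    rcases le_or_gt ‖y‖ r with hy | hy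
    · exact IsSelfAdjoint.smul (conj_ofReal _) (g.sa x _ (hm y hy))
    · rw [h0 y hy.le, ofReal_zero]
      exact (zero_smul ℂ (g.Γ x (y + c))).symm ▸ IsSelfAdjoint.zero (L n)) fun y hy a b d => by
    have h1 := h x _ (hm y (by linarith)) a b d
    have h2 := ((g.smooth x).contDiffAt (ho.mem_nhds (hm y (by linarith)))).differentiableAt
      (by simp)
    rw [(he y hy).fderiv_eq, fderiv_comp_add_right, ← dd_om h2, ← dd_om h2, ← dd_om h2]
    exact h1
  have hb : ∀ᶠ y in 𝓝 (0 : E n), ‖y‖ < r / 2 :=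
    (isOpen_lt continuous_norm continuous_const).mem_nhds (by simpa using hr)
  obtain ⟨u, hu, hu'⟩ := dd_pot hZ (hb.mono hZ')
  obtain ⟨ε, hε, h3⟩ := Metric.eventually_nhds_iff_ball.1 (hb.and hu')
  have h4 : ∀ y ∈ ball c ε, y + -c ∈ ball (0 : E n) ε := fun y hy => by
    simpa [dist_eq_norm, sub_eq_add_neg] using hy
  refine ⟨fun y => u (y + -c), ball c ε, isOpen_ball, mem_ball_self hε, fun y hy => ?_,
    (hu.comp (contDiff_id.add contDiff_const)).contDiffOn, fun y hy a => ?_⟩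
  · simpa using hm _ ((h3 _ (h4 y hy)).1.le.trans (by linarith))
  · rw [spar_shift, (h3 _ (h4 y hy)).2]
    refine (congrArg (qf · a) (he _ (h3 _ (h4 y hy)).1).self_of_nhds).trans ?_
    simp

end Vale.Agent.P272
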