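import Vale.Agent.P272.F.Defs
import Vale.Agent.P272.Lin

/-! P272 F/Z/Coc (helper76): Jacobians of changes of charts, transport of sections. -/

open Metric Set Filter Topology Complex
open scoped Manifold ContDiff

noncomputable section

namespace Vale.Agent.P272

variable {n : ℕ} {X : Type} [TopologicalSpace X] {A : Atl n X}
  {e e' e'' : OpenPartialHomeomorph X (E n)} {p : X}

/-- The Jacobian of the change from `e'` to `e`. -/
def zJ (e e' : OpenPartialHomeomorph X (E n)) (p : X) : L n := fderiv ℂ (e ∘ e'.symm) (e' p)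

/-- The change from `e'` to `e` is holomorphic. -/
def zCp (e e' : OpenPartialHomeomorph X (E n)) : Prop :=
  ∀ p, p ∈ e.source → p ∈ e'.source → DifferentiableAt ℂ (e ∘ e'.symm) (e' p)

theorem z_ev (h' : p ∈ e'.source) (h'' : p ∈ e''.source) :
    ∀ᶠ y in 𝓝 (e'' p), y ∈ e''.target ∧ e''.symm y ∈ e'.source := by
  refine (e''.open_target.eventually_mem (e''.map_source h'')).and ?_
  refine (e''.continuousAt_symm (e''.map_source h'')).eventually_mem ?_
  rw [e''.left_inv h'']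
  exact e'.open_source.mem_nhds h'

theorem z_comp (c : zCp e e') (c' : zCp e' e'') (h : p ∈ e.source) (h' : p ∈ e'.source)
    (h'' : p ∈ e''.source) : DifferentiableAt ℂ (e ∘ e''.symm) (e'' p) ∧
      zJ e e'' p = zJ e e' p * zJ e' e'' p := by
  have h1 : e ∘ e''.symm =ᶠ[𝓝 (e'' p)] (e ∘ e'.symm) ∘ (e' ∘ e''.symm) :=
    (z_ev h' h'').mono fun y hy => by simp only [Function.comp, e'.left_inv hy.2]
  have h2 : HasFDerivAt (e ∘ e'.symm) (zJ e e' p) ((e' ∘ e''.symm) (e'' p)) := by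
    rw [Function.comp_apply, e''.left_inv h'']
    exact (c p h h').hasFDerivAt
  have h3 := (h2.comp _ (c' p h' h'').hasFDerivAt).congr_of_eventuallyEq h1
  exact ⟨h3.differentiableAt, h3.fderiv⟩

theorem z_self (h : p ∈ e.source) : zJ e e p = 1 := by
  have h1 : e ∘ e.symm =ᶠ[𝓝 (e p)] id :=
    (e.open_target.eventually_mem (e.map_source h)).mono fun y hy => e.right_inv hy
  exact ((hasFDerivAt_id _).congr_of_eventuallyEq h1).fderiv

theorem z_det (c : zCp e e') (c' : zCp e' e) (h : p ∈ e.source) (h' : p ∈ e'.source) :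
    (zJ e e' p).det ≠ 0 := fun h0 => by
  have h1 := det_mul' (zJ e e' p) (zJ e' e p)
  rw [← (z_comp c c' h h' h).2, z_self h, h0, zero_mul] at h1
  exact det_ne isUnit_one h1

theorem z_inj (c : zCp e e') (c' : zCp e' e) (h : p ∈ e.source) (h' : p ∈ e'.source) {a : E n}
    (ha : zJ e e' p a = 0) : a = 0 := by
  have h1 := congrArg (fun T : L n => T a) (z_comp c' c h' h h').2
  simpa [z_self h', ha] using h1

theorem z_an (c : zCp e e') (h : p ∈ e.source) (h' : p ∈ e'.source) :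
    AnalyticAt ℂ (e ∘ e'.symm) (e' p) :=
  P278.osgood_at ((z_ev h h').mono fun y hy => by
    have := c _ hy.2 (e'.map_target hy.1)
    rwa [e'.right_inv hy.1] at this)

theorem Atl.z_ch (A : Atl n X) (p : X) : p ∈ (A.e (A.ch p)).source := (A.cov p).choose_spec.1

variable [ChartedSpace (E n) X]

/-- The charts of `A` are compatible with the given charts. -/
def Atl.Cz (A : Atl n X) : Prop :=
  ∀ j x, zCp (A.e j) (chartAt (E n) x) ∧ zCp (chartAt (E n) x) (A.e j)

theorem Atl.Cz.hyp (h : A.Cz)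
    (hy : ∀ f : ℂ → X, MDifferentiable 𝓘(ℂ, ℂ) 𝓘(ℂ, E n) f → ∀ z w, f z = f w) : A.Hyp := by
  refine fun f hf => hy f fun z => ?_
  obtain ⟨h1, h2⟩ := hf z
  have h3 := A.z_ch (f z)
  have h4 : chartAt (E n) (f z) ∘ f =ᶠ[𝓝 z]
      (chartAt (E n) (f z) ∘ (A.e (A.ch (f z))).symm) ∘ (A.e (A.ch (f z)) ∘ f) :=
    (h1.eventually_mem ((A.e _).open_source.mem_nhds h3)).mono fun w hw => by
      simp only [Function.comp, (A.e _).left_inv hw]
  have h5 := (DifferentiableAt.comp z ((h _ (f z)).2 _ (mem_chart_source _ _) h3)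
    (h2 _ h3)).congr_of_eventuallyEq h4
  rw [mdifferentiableAt_iff]
  refine ⟨h1, DifferentiableAt.differentiableWithinAt ?_⟩
  simp only [mfld_simps]
  exact h5

/-- A section read in the chart at `x`. -/
def zS {m : ℕ} (σ : A.Sec m) (x p : X) : ℂ :=
  σ.s (A.ch p) (A.e (A.ch p) p) * (zJ (A.e (A.ch p)) (chartAt (E n) x) p).det ^ m

theorem zS_eq (h : A.Cz) {m : ℕ} (σ : A.Sec m) {x : X} {j : Fin A.N} (hj : p ∈ (A.e j).source)
    (hx : p ∈ (chartAt (E n) x).source) :
    zS σ x p = σ.s j (A.e j p) * (zJ (A.e j) (chartAt (E n) x) p).det ^ m := by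
  rw [zS, σ.cmp j _ p hj (A.z_ch p),
    (z_comp (A.hol j _) (h _ x).1 hj (A.z_ch p) hx).2, det_mul', mul_pow, mul_assoc]
  rfl

theorem zS_ev (h : A.Cz) {m : ℕ} (σ : A.Sec m) {x : X} {j : Fin A.N} (hj : p ∈ (A.e j).source)
    (hx : p ∈ (chartAt (E n) x).source) :
    (fun y => zS σ x ((chartAt (E n) x).symm y)) =ᶠ[𝓝 (chartAt (E n) x p)] fun y =>
      σ.s j ((A.e j ∘ (chartAt (E n) x).symm) y) *
        (fderiv ℂ (A.e j ∘ (chartAt (E n) x).symm) y).det ^ m :=
  (z_ev hj hx).mono fun y hy => by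
    simp only [zS_eq h σ hy.2 ((chartAt (E n) x).map_target hy.1), zJ,
      (chartAt (E n) x).right_inv hy.1, Function.comp]

theorem zS_d (h : A.Cz) (m : ℕ) {x : X} {j : Fin A.N} (hj : p ∈ (A.e j).source)
    (hx : p ∈ (chartAt (E n) x).source) : ∃ D : E n →L[ℂ] ℂ, ∀ σ : A.Sec m,
      HasFDerivAt (fun y => zS σ x ((chartAt (E n) x).symm y)) (σ.s j (A.e j p) • D +
        (zJ (A.e j) (chartAt (E n) x) p).det ^ m • (fderiv ℂ (σ.s j) (A.e j p)).comp
          (zJ (A.e j) (chartAt (E n) x) p)) (chartAt (E n) x p) := by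
  have h1 := z_an (h j x).1 hj hx
  have h2 : DifferentiableAt ℂ (fun y => (fderiv ℂ (A.e j ∘ (chartAt (E n) x).symm) y).det ^ m)
      (chartAt (E n) x p) := ((analyticAt_det _).comp h1.fderiv).differentiableAt.pow m
  have e1 : (A.e j ∘ (chartAt (E n) x).symm) (chartAt (E n) x p) = A.e j p := by
    rw [Function.comp_apply, (chartAt (E n) x).left_inv hx]
  refine ⟨fderiv ℂ (fun y => (fderiv ℂ (A.e j ∘ (chartAt (E n) x).symm) y).det ^ m)
    (chartAt (E n) x p), fun σ => ?_⟩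
  have h3 : HasFDerivAt (σ.s j) (fderiv ℂ (σ.s j) (A.e j p))
      ((A.e j ∘ (chartAt (E n) x).symm) (chartAt (E n) x p)) := by
    rw [e1]
    exact ((σ.hol j).differentiableAt
      ((A.e j).open_target.mem_nhds ((A.e j).map_source hj))).hasFDerivAt
  have h4 := ((h3.comp _ h1.differentiableAt.hasFDerivAt).fun_mul
    h2.hasFDerivAt).congr_of_eventuallyEq (zS_ev h σ hj hx)
  rwa [Function.comp_apply, e1] at h4

variable [IsManifold 𝓘(ℂ, E n) ω X]

theorem z_jac (x x' : X) : zCp (chartAt (E n) x) (chartAt (E n) x') := fun p h h' => by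
  have h1 := contDiffOn_ext_coord_change (I := 𝓘(ℂ, E n)) (n := ω) x x'
  simp only [mfld_simps] at h1
  refine (h1.contDiffAt (mem_of_superset (z_ev h h') fun y hy => hy)).differentiableAt (by simp)

/-- The section on the given atlas. -/
def zSec (h : A.Cz) {m : ℕ} (σ : A.Sec m) : CanSec n X m where
  s x y := zS σ x ((chartAt (E n) x).symm y)
  hol x y hy := by
    obtain ⟨D, hD⟩ := zS_d h m (A.z_ch _) ((chartAt (E n) x).map_target hy)
    rw [(chartAt (E n) x).right_inv hy] at hD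
    exact (hD σ).differentiableAt.differentiableWithinAt
  compat x x' p hx hx' := by
    rw [(chartAt (E n) x).left_inv hx, (chartAt (E n) x').left_inv hx', zS, zS,
      (z_comp (h _ x).1 (z_jac x x') (A.z_ch p) hx hx').2, det_mul', mul_pow, mul_assoc]
    rfl

theorem Atl.Cz.ample (h : A.Cz) (hA : A.Ample) : CanAmple n X := by
  obtain ⟨m, N, σ, hm, h1, h2, h3⟩ := hA
  have e1 : ∀ i p, (zSec h (σ i)).s p (chartAt (E n) p p) = (σ i).s (A.ch p) (A.e (A.ch p) p) *
      (zJ (A.e (A.ch p)) (chartAt (E n) p) p).det ^ m := fun i p => by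
    simp only [zSec, (chartAt (E n) p).left_inv (mem_chart_source _ p), zS]
  have d0 : ∀ p, (zJ (A.e (A.ch p)) (chartAt (E n) p) p).det ^ m ≠ 0 := fun p =>
    pow_ne_zero m (z_det (h _ p).1 (h _ p).2 (A.z_ch p) (mem_chart_source _ p))
  refine ⟨m, N, fun i => zSec h (σ i), hm, fun p => ?_, fun p q c hc => ?_, fun p a c hc => ?_⟩
  · obtain ⟨i, hi⟩ := h1 _ p (A.z_ch p)
    exact ⟨i, by rw [e1]; exact mul_ne_zero hi (d0 p)⟩
  · refine h2 _ _ p q (c * (zJ (A.e (A.ch q)) (chartAt (E n) q) q).det ^ m /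
      (zJ (A.e (A.ch p)) (chartAt (E n) p) p).det ^ m) (A.z_ch p) (A.z_ch q) fun i => ?_
    have := hc i
    rw [e1, e1] at this
    rw [div_mul_eq_mul_div, eq_div_iff (d0 p), this]
    ring
  · obtain ⟨D, hD⟩ := zS_d h m (A.z_ch p) (mem_chart_source (E n) p)
    refine z_inj (h _ p).1 (h _ p).2 (A.z_ch p) (mem_chart_source _ p) (h3 (A.ch p) p _
      (c - D a / (zJ (A.e (A.ch p)) (chartAt (E n) p) p).det ^ m) (A.z_ch p) fun i => ?_)
    have h4 := hc i
    have h5 : fderiv ℂ ((zSec h (σ i)).s p) (chartAt (E n) p p) = _ := (hD (σ i)).fderiv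
    rw [e1, h5] at h4
    simp only [add_apply, smul_apply, smul_eq_mul, ContinuousLinearMap.comp_apply] at h4
    have h6 := d0 p
    field_simp
    linear_combination h4

end Vale.Agent.P272
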